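import Crest.Agent.X262.Wr72.Val
import Crest.Agent.X262.Mod79.Neg
import Crest.Agent.X262.Loc95.Prj

/-!
# Row 262, Vol77 (helper77), part 0: definitions for the algebraic volume bound

* `Deg H a d`  : at the primes of the `H`-model `a` is `ℚ`-linearly equivalent to `d H`;
* `In H r`     : canonical model of Picard number one with `H ∼ - r K`;
* `HilStmt`    : uniform lower bound for the Hilbert function;
* `BetaStmt`   : the classes of a fibration in curves;
* `VolOut`, `Vol n` : the output.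
-/

set_option autoImplicit false
set_option linter.unusedSectionVars false

noncomputable section

namespace Crest.Agent.X262.Vol77

open Module Crest.Agent.X277 Crest.Agent.X277.BD Crest.Agent.X277.Pst Crest.Agent.X277.Jet
open Crest.Agent.X262.Mod Crest.Agent.X262.Wr72
open List (replicate)

section Defs

variable {k K : Type} [Field k] [Field K] [Algebra k K]

/-- at the primes of the `H`-model `a` is `ℚ`-linearly equivalent to `d H` -/
def Deg (H a : BD k K) (d : ℚ) : Prop :=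
  ∃ (m : ℕ) (c : ℤ) (f : K), 0 < m ∧ f ≠ 0 ∧ (c : ℚ) = m * d ∧ EqOn H (m • a) (c • H + pr k f)

/-- `H ∼ - r K` on the model and the singularities are canonical -/
def Can (H : BD k K) (r : ℕ) {ι : Type} [Fintype ι] [DecidableEq ι] (b : Basis ι K Ω[K⁄k]) :
    Prop :=
  ∃ h : K, h ≠ 0 ∧ ∀ V : RZ k K, Dvs V → ∀ g, Kv V.v b g →
    V.v h ≤ g ^ r * H.val V ∧ (Prm H V → V.v h = g ^ r * H.val V)

/-- the hypotheses -/
structure In (H : BD k K) (r : ℕ) : Prop where
  mod : IsMod H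
  reg : Gj.Reg k K
  pos : 0 < r
  can : ∃ (n : ℕ) (b : Basis (Fin n) K Ω[K⁄k]), Can H r b
  rho : ∀ a : BD k K, ∃ (m : ℕ) (c : ℤ) (f : K), 0 < m ∧ f ≠ 0 ∧
    EqOn H (m • a) (c • H + pr k f)

variable {H a b : BD k K} {d e : ℚ} {r : ℕ}

theorem kv_reindex {ι κ Γ : Type} [Fintype ι] [DecidableEq ι] [Fintype κ] [DecidableEq κ]
    [LinearOrderedCommGroupWithZero Γ] {v : Valuation K Γ} {b : Basis ι K Ω[K⁄k]} {g : Γ}
    (h : Kv v b g) (e : ι ≃ κ) : Kv v (b.reindex e) g := by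
  have h1 : ∀ z : κ → K, jb (b.reindex e) z = jb b (z ∘ e) := fun z => by
    unfold jb
    rw [Basis.det_reindex']
    rfl
  obtain ⟨z, hz, rfl⟩ := h.1
  refine ⟨⟨z ∘ e.symm, fun _ => hz _, ?_⟩, fun w hw => ?_⟩
  · rw [h1, Function.comp_assoc, Equiv.symm_comp_self, Function.comp_id]
  · rw [h1]
    exact h.2 _ fun _ => hw _

/-- the canonical hypothesis does not depend on the basis -/
theorem Can.change {ι κ : Type} [Fintype ι] [DecidableEq ι] [Fintype κ] [DecidableEq κ]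
    {b : Basis ι K Ω[K⁄k]} (h : Can H r b) (b' : Basis κ K Ω[K⁄k]) : Can H r b' := by
  obtain ⟨h, h0, h1⟩ := h
  let e : κ ≃ ι := b'.indexEquiv b
  have hu : b.det (b'.reindex e) ≠ 0 := (b.isUnit_det _).ne_zero
  refine ⟨h / b.det (b'.reindex e) ^ r, div_ne_zero h0 (pow_ne_zero _ hu), fun V hV g hg => ?_⟩
  obtain ⟨h2, h3⟩ := h1 V hV _ ((kv_reindex hg e).change b)
  have h4 : 0 < V.v (b.det (b'.reindex e)) ^ r := pow_pos (RZ.pos hu) _
  rw [mul_pow, mul_assoc] at h2 h3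
  rw [map_div₀, map_pow, div_le_iff₀' h4, div_eq_iff h4.ne', mul_comm _ (_ ^ r)]
  exact ⟨h2, h3⟩

theorem In.can' (h : In H r) {ι : Type} [Fintype ι] [DecidableEq ι] (b : Basis ι K Ω[K⁄k]) :
    Can H r b := by
  obtain ⟨_, _, h1⟩ := h.can
  exact h1.change b

theorem In.deg (h : In H r) (a : BD k K) : ∃ d, Deg H a d := by
  obtain ⟨m, c, f, h1, h2, h3⟩ := h.rho a
  exact ⟨c / m, m, c, f, h1, h2, by field_simp, h3⟩

theorem Deg.congr (h : Deg H a d) (h' : EqOn H b a) : Deg H b d := by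
  obtain ⟨m, c, f, h1, h2, h3, h4⟩ := h
  exact ⟨m, c, f, h1, h2, h3, (h'.nsmul m).trans h4⟩

theorem deg_self : Deg H H 1 := ⟨1, 1, 1, one_pos, one_ne_zero, by simp, by
  simpa using EqOn.rfl⟩

theorem deg_pr (f : K) : Deg H (pr k f) 0 := by
  by_cases h : f = 0
  · exact ⟨1, 0, 1, one_pos, one_ne_zero, by simp, by simpa [h, pr_zero] using EqOn.rfl⟩
  · exact ⟨1, 0, f, one_pos, h, by simp, by simpa using EqOn.rfl⟩

theorem Deg.add (h : Deg H a d) (h' : Deg H b e) : Deg H (a + b) (d + e) := by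
  obtain ⟨m, c, f, h1, h2, h3, h4⟩ := h
  obtain ⟨m', c', f', h5, h6, h7, h8⟩ := h'
  refine ⟨m * m', m' * c + m * c', f ^ m' * f' ^ m, mul_pos h1 h5,
    mul_ne_zero (pow_ne_zero _ h2) (pow_ne_zero _ h6), by push_cast; rw [h3, h7]; ring, ?_⟩
  convert (h4.nsmul m').add (h8.nsmul m) using 1
  · rw [smul_add, smul_smul, smul_smul, mul_comm m' m]
  · rw [pr_mul (pow_ne_zero _ h2) (pow_ne_zero _ h6), pr_pow h2, pr_pow h6, add_smul, mul_smul,
      mul_smul, smul_add, smul_add, natCast_zsmul, natCast_zsmul]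
    abel

theorem Deg.neg (h : Deg H a d) : Deg H (-a) (-d) := by
  obtain ⟨m, c, f, h1, h2, h3, h4⟩ := h
  refine ⟨m, -c, f⁻¹, h1, inv_ne_zero h2, by push_cast; rw [h3]; ring, ?_⟩
  convert h4.neg using 1
  · rw [smul_neg]
  · rw [pr_inv, neg_smul, neg_add]

theorem Deg.sub (h : Deg H a d) (h' : Deg H b e) : Deg H (a - b) (d - e) := by
  simpa only [sub_eq_add_neg] using h.add h'.neg

theorem deg_zero : Deg H 0 0 := by simpa using deg_pr (H := H) 1

theorem Deg.nsmul (h : Deg H a d) (m : ℕ) : Deg H (m • a) (m * d) := by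
  induction m with
  | zero => simpa using deg_zero
  | succ m ih =>
    rw [succ_nsmul, Nat.cast_succ, add_mul, one_mul]
    exact ih.add h

theorem Deg.of_nsmul {m : ℕ} (hm : 0 < m) (h : Deg H (m • a) (m * d)) : Deg H a d := by
  obtain ⟨l, c, f, h1, h2, h3, h4⟩ := h
  exact ⟨l * m, c, f, mul_pos h1 hm, h2, by rw [h3]; push_cast; ring, by rwa [mul_smul]⟩

end Defs

/-- **uniform lower bound for the Hilbert function** of a birational free linear system -/
def HilStmt : Prop := ∀ {E K : Type} [Field E] [Field K] [Algebra E K] [CharZero E]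
  [Algebra.EssFiniteType E K] {U : ℕ → Set K}, Gj.Ser U → ∀ {N : ℕ} {l : Fin N → K},
  (∀ j, l j ∈ U 1) → (∃ j, l j ≠ 0) → qf E l = ⊤ → ∀ {δ u q : ℕ},
  (δ : ℤ) ≤ bnum (replicate (dim E K) (mxf E l)) → δ + dim E K * u ≤ q →
  FiniteDimensional E (Submodule.span E (U q)) →
  δ * u ^ dim E K ≤ finrank E (Submodule.span E (U q))

/-- **the classes of a fibration in curves**: `ψ` is the pull-back of the canonical class of the
base, `φ` bounds the canonical class of the foliation -/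
def BetaStmt : Prop := ∀ {k M K : Type} [Field k] [Field M] [Field K] [Algebra k M] [Algebra M K]
  [Algebra k K] [IsScalarTower k M K] [CharZero k] [Algebra.EssFiniteType k K]
  {H : BD k K} {r : ℕ}, In H r → Gj.Reg M K → ∀ (Z : Fr M K (Fin 1)) {n : ℕ}
  (Y : Fr k M (Fin (n + 1))), ∃ (ψ φ : BD k K) (γ : ℚ),
    (∀ P, Prm H P → Kv (P.v.comap (algebraMap M K)) Y.basis (ψ.val P)) ∧
    (∀ P, Prm H P → ∀ f ∈ P.1, P.v (Z.D 0 f) ≤ φ.val P) ∧
    Deg H ψ (-γ) ∧ Deg H φ (γ - 1 / r) ∧ 1 ≤ 2 * r * γ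

/-- the output -/
def VolOut {k K : Type} [Field k] [Field K] [Algebra k K] [CharZero k]
    [Algebra.EssFiniteType k K] (H : BD k K) (C : ℕ) : Prop :=
  ∃ M : IntermediateField k K, Gj.Reg M K ∧ 2 ≤ dim M K ∧
    bnum (replicate (dim M K) (up M H)) ≤ (C : ℤ) ^ dim M K

/-- **the volume bound** in dimension at most `n` -/
def Vol (n : ℕ) : Prop := ∃ C : ℕ, ∀ {k K : Type} [Field k] [Field K] [Algebra k K] [CharZero k]
  [Algebra.EssFiniteType k K] {H : BD k K} {r : ℕ}, In H r → 2 ≤ dim k K → dim k K ≤ n →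
  VolOut H (C * r)

end Crest.Agent.X262.Vol77
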