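import Crest.Agent.X262.Vol77.NoGen

/-!
# Row 262, Vol77 (helper77), part 3: the volume bound

* `le_of_count` : a bound for the rank in one large degree bounds the volume;
* `exists_double` : the doubling lemma;
* `vol_of` : `HilStmt → BetaStmt → Vol n`.
-/

set_option autoImplicit false
set_option linter.unusedSectionVars false
set_option linter.style.haveILetI false

noncomputable section

namespace Crest.Agent.X262.Vol77

open Module Crest.Agent.X277 Crest.Agent.X277.BD Crest.Agent.X277.Pst Crest.Agent.X277.Jet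
open Crest.Agent.X262.Mod Crest.Agent.X277.Gj
open List (replicate)

theorem exists_double {ρ : ℕ → ℕ} {T : ℕ} (h1 : ∀ m, 0 < m → 0 < ρ m)
    (h2 : ∀ m, 0 < m → ρ m ≤ T * m + 1) (p₀ : ℕ) : ∃ p, p₀ < p ∧ ρ (2 * p) ≤ 3 * ρ p := by
  by_contra hc
  push Not at hc
  have h3 : ∀ i, 2 ^ i * (i + 2) ≤ 2 * ρ (2 ^ i * (p₀ + 1)) := by
    intro i
    induction i with
    | zero => simpa using Nat.succ_le_of_lt (h1 _ p₀.succ_pos)
    | succ i ih =>
      have h4 := hc (2 ^ i * (p₀ + 1)) (Nat.le_mul_of_pos_left _ (by positivity))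
      have h5 : 0 < 2 ^ i := by positivity
      rw [pow_succ', mul_assoc 2 _ (p₀ + 1)]
      nlinarith
  have h4 := h3 (2 * T * (p₀ + 1) + 1)
  have h5 := h2 (2 ^ (2 * T * (p₀ + 1) + 1) * (p₀ + 1)) (by positivity)
  have h6 : 0 < 2 ^ (2 * T * (p₀ + 1) + 1) := by positivity
  generalize 2 ^ (2 * T * (p₀ + 1) + 1) = x at *
  nlinarith

variable {k E K : Type} [Field k] [Field E] [Field K] [Algebra k E] [Algebra E K] [Algebra k K]
  [IsScalarTower k E K] [CharZero k] [Algebra.EssFiniteType k K] {H : BD k K} {r : ℕ}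

theorem exists_gen_qf (hH : H.Free) (h : H.sf = ⊤) : ∃ (N : ℕ) (l : Fin N → K),
    (∀ j, l j ∈ H.Sec) ∧ (∃ j, l j ≠ 0) ∧ H = mxf k l ∧ qf E l = ⊤ := by
  haveI : Module.Finite k (Submodule.span k (H.Sec : Set K)) := by
    rw [Submodule.span_eq]
    infer_instance
  obtain ⟨l, h1, h2, -⟩ := Submodule.exists_fun_fin_finrank_span_eq k (H.Sec : Set K)
  replace h2 := h2.trans (Submodule.span_eq _)
  have h3 : ∀ V : RZ k K, ∃ j, V.v (l j) = H.val V := fun V => by
    obtain ⟨g, h3, h4⟩ := hH.exists_gen V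
    by_contra hc
    push Not at hc
    obtain ⟨c, rfl⟩ := (Submodule.mem_span_range_iff_exists_fun k).1 (h2 ▸ h3)
    refine h4.not_lt (V.v.map_sum_lt (val_ne _ _) fun j _ => ?_)
    exact (V.v_smul_le _ _).trans_lt ((h1 j V).lt_of_ne (hc j))
  obtain ⟨i, hi⟩ := h3 (RZ.top k K)
  refine ⟨_, l, h1, ⟨i, ne_of_val hi⟩, eq_mxf h1 h3, eq_top_iff.2 fun x _ => ?_⟩
  have h4 : ∀ f ∈ H.Sec, f / l i ∈ qf E l := fun f hf => by
    obtain ⟨c, rfl⟩ := (Submodule.mem_span_range_iff_exists_fun k).1 (h2 ▸ hf)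
    rw [Finset.sum_div]
    refine sum_mem fun j _ => ?_
    rw [smul_div_assoc, ← algebraMap_smul E]
    exact IntermediateField.smul_mem _ (div_mem_qf l i j)
  have h5 : H.sf ≤ (qf E l).restrictScalars k := IntermediateField.adjoin_le_iff.2 (by
    rintro _ ⟨f, hf, g, hg, rfl⟩
    rw [← div_div_div_cancel_right₀ (ne_of_val hi)]
    exact div_mem (h4 f hf) (h4 g hg))
  exact h5 (h ▸ IntermediateField.mem_top)

/-- a bound for the rank in one large degree bounds the volume -/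
theorem le_of_count (hA : HilStmt) [CharZero E] [Algebra.EssFiniteType E K] (hH : IsMod H)
    (h : H.sf = ⊤) {n c q : ℕ} (hc : 0 < c) (hn : dim E K ≤ n)
    (hq : (n + 1) * ((2 * (n + 1) * c) ^ n + 1) ≤ q)
    (h1 : FiniteDimensional E (Submodule.span E (sr H q)))
    (h2 : finrank E (Submodule.span E (sr H q)) ≤ (c * q) ^ dim E K) :
    bnum (replicate (dim E K) (up E H)) ≤ ((2 * (n + 1) * c : ℕ) : ℤ) ^ dim E K := by
  obtain ⟨N, l, l1, l2, l3, l4⟩ := exists_gen_qf (E := E) hH.free h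
  by_contra hc'
  have h3 : (2 * (n + 1) * c) ^ n + 1 ≤ q / (n + 1) :=
    (Nat.le_div_iff_mul_le n.succ_pos).2 (mul_comm (n + 1) _ ▸ hq)
  have h4 : (2 * (n + 1) * c) ^ dim E K ≤ (2 * (n + 1) * c) ^ n :=
    Nat.pow_le_pow_right (by positivity) hn
  have h5 := Nat.mul_div_le q (n + 1)
  have h6 := Nat.lt_mul_div_succ q n.succ_pos
  have h0 : 0 < q / (n + 1) := (Nat.succ_pos _).trans_le h3
  generalize q / (n + 1) = u at *
  have h7 := (hA (ser_sr hH) (l := l) (by simpa [sr] using l1) l2 l4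
    (δ := (2 * (n + 1) * c) ^ dim E K + 1) (u := u) (q := q) (by
      rw [← up_mxf (k := k), ← l3]
      exact_mod_cast not_le.1 hc') (by nlinarith) h1).trans h2
  have h8 : (c * q) ^ dim E K ≤ (2 * (n + 1) * c * u) ^ dim E K :=
    Nat.pow_le_pow_left (by
      rw [show 2 * (n + 1) * c * u = c * ((n + 1) * (2 * u)) by ring]
      exact Nat.mul_le_mul_left _ (h6.le.trans (Nat.mul_le_mul_left _ (by omega)))) _
  have h9 : 0 < u ^ dim E K := by positivity
  rw [mul_pow (_ * c)] at h8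
  nlinarith

/-- an abstract intermediate field gives the output -/
theorem volOut_of [CharZero E] [Algebra.EssFiniteType E K] {C : ℕ} (h1 : Reg E K)
    (h2 : 2 ≤ dim E K) (h3 : bnum (replicate (dim E K) (up E H)) ≤ (C : ℤ) ^ dim E K) :
    VolOut H C := by
  let M : IntermediateField k K := (IsScalarTower.toAlgHom k E K).fieldRange
  let e : E ≃ₐ[k] M := AlgEquiv.ofInjectiveField (IsScalarTower.toAlgHom k E K)
  letI : Algebra E M := e.toRingHom.toAlgebra
  haveI : IsScalarTower E M K := IsScalarTower.of_algebraMap_eq fun _ => rfl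
  haveI : IsScalarTower k E M := IsScalarTower.of_algebraMap_eq fun c => (e.commutes c).symm
  have hb : Function.Bijective (algebraMap E M) := e.bijective
  have h4 : finrank E M = 1 := by
    rw [← (LinearEquiv.ofBijective (Algebra.linearMap E M) hb).finrank_eq, finrank_self]
  haveI : Module.Finite E M := Module.finite_of_finrank_pos (h4 ▸ one_pos)
  haveI : Algebra.EssFiniteType E M := inferInstance
  have h5 : dim E K = dim M K := Loc.dim_fin
  refine ⟨M, (Slope.reg_congr hb.2).1 h1, h5 ▸ h2, ?_⟩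
  rwa [Loc.bnum_up_fin (K := M), h4, Nat.cast_one, one_mul, List.map_replicate, up_up, h5] at h3

theorem In.nsmul (h : In H r) {q : ℕ} (hq : 0 < q) : In (q • H) (q * r) where
  mod := h.mod.nsmul hq
  reg := h.reg
  pos := mul_pos hq h.pos
  can := by
    obtain ⟨n, b, f, h1, h2⟩ := h.can
    refine ⟨n, b, f ^ q, pow_ne_zero _ h1, fun V hV g hg => ?_⟩
    rw [map_pow, val_nsmul, mul_comm q, pow_mul, ← mul_pow, prm_nsmul h.mod.free hq]
    exact ⟨pow_le_pow_left' (h2 V hV g hg).1 q, fun hP => by rw [(h2 V hV g hg).2 hP]⟩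
  rho a := by
    obtain ⟨m, c, f, h1, h2, h3⟩ := h.rho a
    refine ⟨q * m, c, f ^ q, mul_pos hq h1, pow_ne_zero _ h2, fun V hV => ?_⟩
    rw [pr_pow h2, smul_comm c q, ← smul_add, mul_smul]
    exact h3.nsmul q V ((prm_nsmul h.mod.free hq).1 hV)

theorem VolOut.of_nsmul {q C : ℕ} (hq : 0 < q) (h : VolOut (q • H) (q * C)) : VolOut H C := by
  obtain ⟨M, h1, h2, h3⟩ := h
  refine ⟨M, h1, h2, ?_⟩
  have h4 := bnum_rep_nsmul q (up M H) (dim M K) []
  rw [List.append_nil, List.append_nil] at h4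
  rw [map_nsmul, h4, Nat.cast_mul, mul_pow] at h3
  exact le_of_mul_le_mul_left h3 (by positivity)

theorem count_of_noSec [CharZero E] [Algebra.EssFiniteType E K] {t m : ℕ}
    (h : NoSec E (sr H) t) (hm : 0 < m) : FiniteDimensional E (Submodule.span E (sr H m)) ∧
      finrank E (Submodule.span E (sr H m)) ≤ (t * m + dim E K).choose (dim E K) :=
  finrank_le_of_noSec (AlgHom.id E K) fun z hz hI =>
    h m hm z hz (Ideal.pow_le_pow_right (Nat.le_succ _) hI)

theorem rank_pos (hH : IsMod H) {m : ℕ} (h : FiniteDimensional E (Submodule.span E (sr H m))) :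
    0 < finrank E (Submodule.span E (sr H m)) := by
  obtain ⟨τ, h3, h4⟩ := (ser_sr hH).exists_ne m
  exact finrank_pos_iff_exists_ne_zero.2 ⟨⟨τ, Submodule.subset_span h3⟩, by simpa using h4⟩

/-- the case of a fibration in curves -/
theorem curve (hA : HilStmt) (hB : BetaStmt) (h : In H r) (hs : H.sf = ⊤) {n c : ℕ}
    (h2 : 2 ≤ dim k K) (hn : dim k K ≤ n) (M : Type) [Field M] [Algebra k M] [Algebra M K]
    [IsScalarTower k M K] [CharZero M] [Algebra.EssFiniteType k M] [Algebra.EssFiniteType M K]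
    (hM : Reg M K) (h1 : dim M K = 1) (hN : NoSec M (sr H) (c * r)) :
    VolOut H (2 * (n + 1) * ((2 ^ n * (n * n * (3 * (2 * c + 5)) + 1) + n + c + 1) * r)) := by
  have hr := h.pos
  have hc := fun m hm => count_of_noSec (m := m) hN hm
  simp only [h1, Nat.choose_one_right] at hc
  obtain ⟨m₀, hm₀⟩ := second hB h hM h1 h2 hn
  set C := (2 ^ n * (n * n * (3 * (2 * c + 5)) + 1) + n + c + 1) * r with hC
  obtain ⟨p, hp, hρ⟩ := exists_double (ρ := fun m => finrank M (Submodule.span M (sr H m)))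
    (fun m hm => rank_pos h.mod (hc m hm).1) (fun m hm => (hc m hm).2)
    (m₀ + (n + 1) * ((2 * (n + 1) * C) ^ n + 1))
  have hp0 : 0 < p := by omega
  obtain ⟨f1, r1⟩ := hc p hp0
  obtain ⟨f2, r2⟩ := hc (2 * p) (by omega)
  obtain ⟨b⟩ := exists_bas (M := M) (sr H p)
  obtain ⟨b₂⟩ := exists_bas (M := M) (sr H (2 * p))
  have hρ0 := rank_pos h.mod f1
  generalize finrank M (Submodule.span M (sr H p)) = ρ at *
  generalize finrank M (Submodule.span M (sr H (2 * p))) = ρ₂ at *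
  obtain ⟨Λ, E, e1, e2, e3, e4⟩ := hm₀ (2 * p) (by omega) b₂
  have hE : Slope.AC E K := fun g hg => by
    obtain ⟨x, rfl⟩ := Slope.ac_of_reg hM g (hg.tower_top M)
    obtain ⟨y, rfl⟩ := Slope.ac_of_reg e1 x
      ((isAlgebraic_algebraMap_iff (algebraMap M K).injective).1 hg)
    exact ⟨y, rfl⟩
  haveI := Slope.isDomain_of_ac hE M
  haveI : Algebra.EssFiniteType E K := Slope.eft_up k E K
  have e5 : dim E K = dim E M + 1 := h1 ▸ Loc.dim_tower E M K
  have e6 : dim E K ≤ n := (Slope.dm_le k E K).trans hn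
  obtain ⟨a1, a2⟩ := along (E := E) b b₂ (two_mul p ▸ (ser_sr h.mod).mul p p) e3
    (j := 2 ^ n * (n * n * (3 * (2 * (2 * p) * r + ρ₂)) + 1)) fun w hw hw' =>
    e4 w hw (Ideal.pow_le_pow_right (by
      refine le_trans ?_ (Nat.mul_le_mul_right _ (Nat.le_succ _))
      rw [mul_assoc (2 ^ n), add_mul, one_mul, mul_assoc (n * n), mul_right_comm 3]
      gcongr
      exact hρ0) hw')
  refine volOut_of (Slope.reg_of_ac hE) (by omega) (le_of_count hA h.mod hs (q := p)
    (by positivity) e6 (by omega) a1 (a2.trans ?_))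
  have hrp : 0 < r * p := mul_pos hr hp0
  have e7 : dm E M = dim E M := rfl
  rw [e5, pow_succ', e7]
  refine Nat.mul_le_mul (r1.trans ?_) ((Nat.choose_le_pow _ _).trans (Nat.pow_le_pow_left ?_ _))
  · rw [hC, mul_assoc _ r p, mul_assoc _ r p]
    generalize 2 ^ n * (n * n * (3 * (2 * c + 5)) + 1) + n = x
    nlinarith [Nat.zero_le (x * (r * p))]
  · have e8 : 2 * (2 * p) * r + ρ₂ ≤ (2 * c + 5) * (r * p) := by nlinarith
    have e9 : n * n * (3 * (2 * (2 * p) * r + ρ₂)) + 1 ≤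
        (n * n * (3 * (2 * c + 5)) + 1) * (r * p) := by
      rw [add_mul, one_mul, mul_assoc (n * n), mul_assoc 3]
      gcongr
      exact hrp
    have e10 := Nat.mul_le_mul_left (2 ^ n) e9
    have e11 : dim E M ≤ n * (r * p) := (by omega : dim E M ≤ n).trans
      (Nat.le_mul_of_pos_right _ hrp)
    rw [hC, mul_assoc _ r p, add_mul, add_mul, add_mul, mul_assoc (2 ^ n)]
    omega

theorem VolOut.mono {C C' : ℕ} (h : VolOut H C) (hC : C ≤ C') : VolOut H C' := by
  obtain ⟨M, h1, h2, h3⟩ := h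
  exact ⟨M, h1, h2, h3.trans (pow_le_pow_left₀ (by positivity) (by exact_mod_cast hC) _)⟩

/-- **the volume bound** -/
theorem vol_of (hA : HilStmt) (hB : BetaStmt) (n : ℕ) : Vol n := by
  obtain ⟨c, hc⟩ : ∃ c, c = 2 ^ n * ((n + 1) * n + 1) := ⟨_, rfl⟩
  refine ⟨2 * (n + 1) * (2 ^ n * (n * n * (3 * (2 * c + 5)) + 1) + n + c + 1),
    fun {k K} _ _ _ _ _ H r h h2 hn => ?_⟩
  wlog hs : H.sf = ⊤ generalizing H r
  · obtain ⟨q, hq, -, h3⟩ := h.mod.big.exists_alg
    refine VolOut.of_nsmul hq ?_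
    rw [mul_left_comm]
    exact this _ _ (h.nsmul hq) h3
  obtain ⟨F, f1, f2, f3⟩ := h.gap (by omega) hn
  rw [← hc, mul_assoc] at *
  obtain f4 | f4 : dim F K = 1 ∨ 2 ≤ dim F K := by omega
  · exact curve hA hB h hs h2 hn F f1 f4 f3
  have hr := h.pos
  have f5 : dim F K ≤ n := (Slope.dm_le k F K).trans hn
  obtain ⟨q, hq⟩ : ∃ q, q = (n + 1) * ((2 * (n + 1) * ((c + n + 1) * r)) ^ n + 1) := ⟨_, rfl⟩
  have hq0 : 0 < q := hq ▸ by positivity
  obtain ⟨g1, g2⟩ := count_of_noSec f3 hq0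
  refine VolOut.mono (C := 2 * (n + 1) * ((c + n + 1) * r)) ⟨F, f1, f4, le_of_count hA h.mod hs
    (by positivity) f5 hq.ge g1 (g2.trans ((Nat.choose_le_pow _ _).trans
      (Nat.pow_le_pow_left ?_ _)))⟩
    (Nat.mul_le_mul_left _ (Nat.mul_le_mul_right _ (by omega)))
  have hrq : 0 < r * q := mul_pos hr hq0
  have := f5.trans (Nat.le_mul_of_pos_right n hrq)
  rw [mul_assoc, mul_assoc, add_mul, add_mul]
  omega

end Crest.Agent.X262.Vol77
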