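import Crest.Agent.X277.Jet.Gen
import Crest.Agent.X277.Gj.Tay

/-!
# Row 262, Vol77 (helper77), part 1: sections which vanish along a fibre

`E ≤ M ≤ K` a tower of fields.

* `Bas M V r` : a basis over `M` of the span of `V`, chosen in `V`, with coordinate functionals;
* `Bas.pl`    : Plücker coordinates;
* `along`     : if no combination of Plücker coordinates of `V₂ ⊇ V V` vanishes to order `T` at
  the generic point of `M / E`, then the rank of `V` over `E` is bounded.
-/

set_option autoImplicit false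
set_option linter.unusedSectionVars false

noncomputable section

namespace Crest.Agent.X262.Vol77

open Module Crest.Agent.X277 Crest.Agent.X277.Gj
open scoped TensorProduct

/-! ### determinants -/

section Det

variable {A n α : Type*} [CommRing A] [Fintype n] [DecidableEq n]

theorem det_mem_pow (J : Ideal A) (R : Matrix n n A) (w : n → ℕ) (h : ∀ l c, R l c ∈ J ^ w l) :
    R.det ∈ J ^ ∑ l, w l := by
  rw [Matrix.det_apply]
  refine Ideal.sum_mem _ fun σ _ => ?_
  rw [Units.smul_def, zsmul_eq_mul, ← Equiv.sum_comp σ w, ← Finset.prod_pow_eq_pow_sum]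
  exact Ideal.mul_mem_left _ _ (Ideal.prod_mem_prod fun i _ => h _ _)

/-- independent rows are completed by standard rows to a matrix with nonzero determinant -/
theorem exists_complete [Nontrivial A] {ρ : α → n → A} (h : LinearIndependent A ρ)
    (T : Finset α) : ∃ (R : Matrix n n A) (P : Finset n), R.det ≠ 0 ∧ P.card = T.card ∧
      (∀ l ∈ P, ∃ a ∈ T, R l = ρ a) ∧ ∀ l ∉ P, R l = Pi.single l 1 := by
  classical
  induction T using Finset.induction_on with
  | empty => exact ⟨1, ∅, by simp, rfl, by simp, fun l _ => funext fun c => by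
      rw [Matrix.one_apply, Pi.single_apply]; simp [eq_comm]⟩
  | insert a T ha ih =>
    obtain ⟨R, P, h1, h2, h3, h4⟩ := ih
    have key : ∃ l ∉ P, (R.updateRow l (ρ a)).det ≠ 0 := by
      by_contra hc
      push Not at hc
      have h5 : R.det • ρ a = ∑ l, (R.updateRow l (ρ a)).det • R l := by
        have := Matrix.mulVec_cramer R.transpose (ρ a)
        rw [Matrix.det_transpose] at this
        rw [← this]
        ext c
        simp [Matrix.mulVec, dotProduct, Matrix.cramer_transpose_apply, mul_comm]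
      have h6 : R.det • ρ a ∈ Submodule.span A (ρ '' (T : Set α)) := by
        rw [h5]
        refine Submodule.sum_mem _ fun l _ => ?_
        by_cases hl : l ∈ P
        · obtain ⟨b, hb, hb'⟩ := h3 l hl
          exact Submodule.smul_mem _ _ (hb' ▸ Submodule.subset_span ⟨b, hb, rfl⟩)
        · rw [hc l hl, zero_smul]
          exact zero_mem _
      exact h1 (h.eq_zero_of_smul_mem_span a _ (Submodule.span_mono (Set.image_mono
        (Set.subset_sdiff_singleton (Set.subset_univ _) ha)) h6))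
    obtain ⟨l, hl, h5⟩ := key
    refine ⟨R.updateRow l (ρ a), insert l P, h5, by
      rw [Finset.card_insert_of_notMem hl, Finset.card_insert_of_notMem ha, h2], fun c hc => ?_,
      fun c hc => ?_⟩
    · by_cases hcl : c = l
      · exact ⟨a, Finset.mem_insert_self _ _, by rw [hcl, Matrix.updateRow_self]⟩
      · obtain ⟨b, hb, hb'⟩ := h3 c ((Finset.mem_insert.1 hc).resolve_left hcl)
        exact ⟨b, Finset.mem_insert_of_mem hb, by rw [Matrix.updateRow_ne hcl, hb']⟩
    · rw [Finset.mem_insert, not_or] at hc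
      rw [Matrix.updateRow_ne hc.1, h4 c hc.2]

end Det

/-! ### bases -/

/-- a basis of the span of `V` chosen in `V` -/
structure Bas (M : Type*) {K : Type*} [Field M] [Field K] [Algebra M K] (V : Set K) (r : ℕ) where
  /-- the basis -/
  e : Fin r → K
  /-- the coordinates -/
  ε : Fin r → K →ₗ[M] M
  mem : ∀ i, e i ∈ V
  dual : ∀ i l, ε i (e l) = if l = i then 1 else 0
  sum : ∀ v ∈ V, v = ∑ i, ε i v • e i

variable {E M K : Type*} [Field E] [Field M] [Field K] [Algebra E M] [Algebra M K] [Algebra E K]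
  [IsScalarTower E M K] {V V₂ : Set K} {r r₂ : ℕ}

theorem exists_bas (V : Set K) [FiniteDimensional M (Submodule.span M V)] :
    Nonempty (Bas M V (finrank M (Submodule.span M V))) := by
  obtain ⟨e, h1, h2, h3⟩ := Submodule.exists_fun_fin_finrank_span_eq M V
  obtain ⟨g, hg⟩ := (Fintype.linearCombination M e).exists_leftInverse_of_injective
    (LinearMap.ker_eq_bot.2 (h3.fintypeLinearCombination_injective))
  have h4 : ∀ c, g (∑ i, c i • e i) = c := fun c => LinearMap.congr_fun hg c
  refine ⟨e, fun i => LinearMap.proj i ∘ₗ g, h1, fun i l => ?_, fun v hv => ?_⟩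
  · have := congrFun (h4 (Pi.single l 1)) i
    simpa [Pi.single_apply, eq_comm] using this
  · obtain ⟨c, rfl⟩ := (Submodule.mem_span_range_iff_exists_fun M).1
      (h2 ▸ Submodule.subset_span hv)
    simp only [LinearMap.comp_apply, h4, LinearMap.proj_apply]

namespace Bas

variable (b : Bas M V r)

theorem li : LinearIndependent M b.e := Fintype.linearIndependent_iff.2 fun c hc i => by
  simpa [b.dual] using congrArg (b.ε i) hc

/-- Plücker coordinates -/
def pl (v : Fin r → K) : M := (Matrix.of fun l c => b.ε c (v l)).det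

theorem pl_e : b.pl b.e = 1 := by
  rw [pl, ← Matrix.det_one (n := Fin r)]
  congr 1
  ext l c
  rw [Matrix.of_apply, b.dual, Matrix.one_apply]

end Bas

variable (E) in
/-- a coordinate along the fibre -/
def cA (f : K →ₗ[M] M) : M ⊗[E] K →ₗ[M] M ⊗[E] M := (f.restrictScalars E).baseChange M

theorem cA_tmul (f : K →ₗ[M] M) (c : M) (x : K) : cA E f (c ⊗ₜ x) = c ⊗ₜ f x := rfl

variable (E M K) in
/-- functions on the base -/
def inc : M ⊗[E] M →ₐ[M] M ⊗[E] K :=
  Algebra.TensorProduct.map (AlgHom.id M M) (IsScalarTower.toAlgHom E M K)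

theorem inc_tmul (c x : M) : inc E M K (c ⊗ₜ x) = c ⊗ₜ algebraMap M K x := rfl

theorem cA_inc (f : K →ₗ[M] M) (a : M ⊗[E] M) (s : M ⊗[E] K) :
    cA E f (inc E M K a * s) = a * cA E f s := by
  induction a using TensorProduct.induction_on with
  | zero => simp
  | add x y hx hy => simp [add_mul, hx, hy]
  | tmul c x =>
    induction s using TensorProduct.induction_on with
    | zero => simp
    | add x y hx hy => simp [mul_add, hx, hy]
    | tmul d y => simp [inc_tmul, cA_tmul, ← Algebra.smul_def]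

theorem cA_mul (f : K →ₗ[M] M) (s : M ⊗[E] K) (v : K) :
    cA E f (s * 1 ⊗ₜ v) = cA E (f ∘ₗ LinearMap.mulRight M v) s := by
  induction s using TensorProduct.induction_on with
  | zero => simp
  | add x y hx hy => simp [add_mul, hx, hy]
  | tmul d y => simp [cA_tmul]

theorem Bas.sum_S (b : Bas M V r) {s : M ⊗[E] K} (hs : s ∈ S E M V) :
    s = ∑ i, inc E M K (cA E (b.ε i) s) * 1 ⊗ₜ b.e i := by
  induction hs using Submodule.span_induction with
  | mem x hx =>
    obtain ⟨v, hv, rfl⟩ := hx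
    conv_lhs => rw [b.sum v hv]
    simp [cA_tmul, inc_tmul, TensorProduct.tmul_sum, Algebra.smul_def]
  | zero => simp
  | add x y _ _ hx hy =>
    simp only [map_add, add_mul, Finset.sum_add_distrib]
    rw [← hx, ← hy]
  | smul c x _ hx =>
    simp only [map_smul, smul_mul_assoc, ← Finset.smul_sum]
    rw [← hx]

theorem Bas.pl_mem (b : Bas M V r) {Λ : Set M} (hΛ : ∀ v, (∀ l, v l ∈ V) → b.pl v ∈ Λ)
    {t : Fin r → M ⊗[E] K} (ht : ∀ l, t l ∈ S E M V) :
    (Matrix.of fun l c => cA E (b.ε c) (t l)).det ∈ S E M Λ := by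
  let F : MultilinearMap M (fun _ : Fin r => M ⊗[E] K) (M ⊗[E] M) :=
    ((Matrix.detRowAlternating (n := Fin r) (R := M ⊗[E] M)).toMultilinearMap.restrictScalars
      M).compLinearMap fun _ => LinearMap.pi fun c => cA E (b.ε c)
  have hF : ∀ t, F t = (Matrix.of fun l c => cA E (b.ε c) (t l)).det := fun _ => rfl
  choose n f g h using fun l => Submodule.mem_span_set'.1 (ht l)
  rw [← hF, ← funext h, F.map_sum]
  refine Submodule.sum_mem _ fun ρ _ => ?_
  rw [F.map_smul_univ]
  refine Submodule.smul_mem _ _ ?_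
  choose v hv hv' using fun l => (g l (ρ l)).2
  rw [← funext hv', hF]
  convert one_tmul_mem_S (E := E) (Ω := M) (hΛ v hv) using 1
  exact ((Algebra.TensorProduct.includeRight : M →ₐ[E] M ⊗[E] M).toRingHom.map_det _).symm

/-- a section which vanishes along the fibre gives a Plücker coordinate which vanishes at the
point -/
theorem eq_zero_of_ord [IsDomain (M ⊗[E] K)] (b : Bas M V r) (b₂ : Bas M V₂ r₂)
    (hV : ∀ x ∈ V, ∀ y ∈ V, x * y ∈ V₂) {Λ : Set M} (hΛ : ∀ v, (∀ l, v l ∈ V₂) → b₂.pl v ∈ Λ)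
    {J : Ideal (M ⊗[E] M)} {j : ℕ} (hN : ∀ w ∈ S E M Λ, w ∈ J ^ (j * r) → w = 0)
    {s : M ⊗[E] K} (hs : s ∈ S E M V) (ho : ∀ i, cA E (b.ε i) s ∈ J ^ j) : s = 0 := by
  classical
  by_contra h0
  have h1 : ∀ f : K →ₗ[M] M, cA E f s ∈ J ^ j := fun f => by
    rw [b.sum_S hs, map_sum]
    exact Ideal.sum_mem _ fun i _ => by
      rw [cA_inc]
      exact Ideal.mul_mem_right _ _ (ho i)
  have h2 : ∀ i, s * 1 ⊗ₜ b.e i ∈ S E M V₂ := fun i => S_mul hV hs (one_tmul_mem_S (b.mem i))
  have h3 : LinearIndependent (M ⊗[E] M) fun i c => cA E (b₂.ε c) (s * 1 ⊗ₜ b.e i) := by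
    refine Fintype.linearIndependent_iff.2 fun a ha i => ?_
    have h4 : s * ∑ i, inc E M K (a i) * 1 ⊗ₜ b.e i = 0 := by
      have h5 : ∀ c, ∑ i, a i * cA E (b₂.ε c) (s * 1 ⊗ₜ b.e i) = 0 := fun c => by
        simpa using congrFun ha c
      calc _ = ∑ i, inc E M K (a i) * ∑ c, inc E M K (cA E (b₂.ε c) (s * 1 ⊗ₜ b.e i)) *
              1 ⊗ₜ b₂.e c := by
            rw [Finset.mul_sum]
            exact Finset.sum_congr rfl fun i _ => by rw [← b₂.sum_S (h2 i), mul_left_comm]
        _ = ∑ c, inc E M K (∑ i, a i * cA E (b₂.ε c) (s * 1 ⊗ₜ b.e i)) * 1 ⊗ₜ b₂.e c := by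
            simp only [Finset.mul_sum, map_sum, Finset.sum_mul, map_mul, mul_assoc]
            exact Finset.sum_comm
        _ = 0 := by simp [h5]
    have h6 := congrArg (cA E (b.ε i)) ((mul_eq_zero.1 h4).resolve_left h0)
    simpa [cA_inc, cA_tmul, b.dual, TensorProduct.tmul_ite, ← Algebra.TensorProduct.one_def]
      using h6
  obtain ⟨R, P, h4, h5, h6, h7⟩ := exists_complete h3 Finset.univ
  have h8 : ∀ l, ∃ t ∈ S E M V₂, R l = fun c => cA E (b₂.ε c) t := fun l => by
    by_cases hl : l ∈ P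
    · obtain ⟨a, -, ha⟩ := h6 l hl
      exact ⟨_, h2 a, ha⟩
    · refine ⟨_, one_tmul_mem_S (b₂.mem l), (h7 l hl).trans (funext fun c => ?_)⟩
      rw [cA_tmul, b₂.dual, Pi.single_apply]
      simp [TensorProduct.tmul_ite, ← Algebra.TensorProduct.one_def, eq_comm]
  choose t ht ht' using h8
  refine h4 (hN _ ?_ ?_)
  · convert b₂.pl_mem hΛ ht using 2
    exact funext ht'
  · convert det_mem_pow J R (fun l => if l ∈ P then j else 0) fun l c => ?_ using 2
    · simp [h5, mul_comm]
    · split_ifs with hl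
      · obtain ⟨a, -, ha⟩ := h6 l hl
        rw [ha]
        exact Set.mem_of_eq_of_mem (cA_mul (b₂.ε c) s (b.e a)) (h1 _)
      · simp

/-- **counting along the fibre** -/
theorem along [CharZero E] [Algebra.EssFiniteType E M] [IsDomain (M ⊗[E] K)] (b : Bas M V r)
    (b₂ : Bas M V₂ r₂) (hV : ∀ x ∈ V, ∀ y ∈ V, x * y ∈ V₂) {Λ : Set M}
    (hΛ : ∀ v, (∀ l, v l ∈ V₂) → b₂.pl v ∈ Λ) {j : ℕ}
    (hN : ∀ w ∈ S E M Λ, w ∈ I E M ^ ((j + 1) * r) → w = 0) :
    FiniteDimensional E (Submodule.span E V) ∧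
      finrank E (Submodule.span E V) ≤ r * (j + dm E M).choose (dm E M) := by
  obtain ⟨h1, h2⟩ := Jet.finrank_quot_J (AlgHom.id E M) j
  let F : S E M V →ₗ[M] (Fin r → (M ⊗[E] M) ⧸ I E M ^ (j + 1)) :=
    (LinearMap.pi fun i => (Ideal.Quotient.mkₐ M _).toLinearMap ∘ₗ cA E (b.ε i)) ∘ₗ
      Submodule.subtype _
  have hF : Function.Injective F := (injective_iff_map_eq_zero F).2 fun s hs =>
    Subtype.ext (eq_zero_of_ord b b₂ hV hΛ hN s.2 fun i =>
      Ideal.Quotient.eq_zero_iff_mem.1 (congrFun hs i))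
  have h3 : FiniteDimensional M (S E M V) := Module.Finite.of_injective F hF
  have h4 := LinearMap.finrank_le_finrank_of_injective hF
  rw [finrank_pi_fintype, Finset.sum_const, h2, Finset.card_univ, Fintype.card_fin,
    smul_eq_mul, Jet.finrank_S] at h4
  exact ⟨Jet.finite_of_S (Ω := M) V, h4⟩

end Crest.Agent.X262.Vol77
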