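import Crest.Agent.X262.Vol77.Main
import Crest.Agent.X262.Wr72.Hil
import Crest.Agent.X262.R1.Beta
import Crest.Agent.X262.Gfm18.V77
import Crest.Agent.X262.Bnd.Defs

/-!
# Row 262, Vol77 (helper77), part 4: the volume statement
-/

set_option autoImplicit false

namespace Crest.Agent.X262.Vol77

/-- **the volume bound** -/
theorem vol (n : ℕ) : Vol n := vol_of Wr72.hil R1.beta n

/-- **VOL** -/
theorem volStmt : Bnd.VolStmt := Gfm.volS_of_77 (vol 4)

end Crest.Agent.X262.Vol77
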