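import Crest.Agent.X262.Vol77.Defs
import Crest.Agent.X262.Vol77.Along
import Crest.Agent.X262.Wr72.Leaf
import Crest.Agent.X277.Gj.Gap
import Crest.Agent.X277.Slope.Reg

/-!
# Row 262, Vol77 (helper77), part 2: full jets are impossible

* `Deg.nonneg` : a class with a section has nonnegative degree;
* `noGen`      : a series of small degree on a base with negative canonical class does not
  generate many jets; `In.gap` : the first gap field;
* `lam`, `ser_lam`, `pl_mem_lam` : the series of Plücker coordinates on the base of a fibration in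
  curves; `second` : the second gap field.
-/

set_option autoImplicit false
set_option linter.unusedSectionVars false

noncomputable section

namespace Crest.Agent.X262.Vol77

open Module Crest.Agent.X277 Crest.Agent.X277.BD Crest.Agent.X277.Pst Crest.Agent.X277.Jet
open Crest.Agent.X262.Mod Crest.Agent.X262.Wr72 Crest.Agent.X277.Gj
open List (replicate)

variable {k M K : Type} [Field k] [Field M] [Field K] [Algebra k M] [Algebra M K] [Algebra k K]
  [IsScalarTower k M K] [CharZero k] [Algebra.EssFiniteType k K]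
  {H a A ψ φ : BD k K} {d α γ : ℚ} {r : ℕ} {s : K}

theorem Deg.nonneg (h : Deg H a d) (hH : IsMod H) (hd : 0 < dim k K) (h0 : s ≠ 0)
    (hs : ∀ P, Prm H P → P.v s ≤ a.val P) : 0 ≤ d := by
  obtain ⟨m, c, f, h1, h2, h3, h4⟩ := h
  obtain ⟨e, he⟩ := Nat.exists_eq_succ_of_ne_zero hd.ne'
  have h5 : Eff (c • H + pr k f) := ⟨s ^ m, (((car_self hH.free).zsmul c).add (car_pr f)).mem_Sec hH
    fun P hP => by
      rw [← h4 P hP, map_pow, val_nsmul]
      exact pow_le_pow_left' (hs P hP) m, pow_ne_zero _ h0⟩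
  have h6 := h5.bnum_nonneg (all_rp hH.free.nef e)
  have h7 : 0 < bnum (replicate (e + 1) H) := bnum_pos (by simp [he]) (all_rp ⟨hH.free.nef, hH.big⟩ _)
  rw [bnum_add, bnum_pr, add_zero, bnum_zsmul] at h6
  have h8 : (0 : ℚ) ≤ c := Int.cast_nonneg (nonneg_of_mul_nonneg_left h6 h7)
  rw [h3] at h8
  exact nonneg_of_mul_nonneg_right h8 (Nat.cast_pos.2 h1)

/-- **full jets are impossible** -/
theorem noGen (hH : IsMod H) (hd : 0 < dim k K) {n : ℕ} (Y : Fr k M (Fin (n + 1))) {ρ : ℕ}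
    (hψ : ∀ P, Prm H P → ∃ g, Kv (P.v.comap (algebraMap M K)) Y.basis g ∧ g ^ ρ ≤ ψ.val P)
    (dψ : Deg H ψ (-γ)) (dA : Deg H A α) (hγ : 0 < γ) {Λ : ℕ → Set M}
    (hΛ : ∀ j, ∀ u ∈ Λ j, ∀ P, Prm H P → P.v (algebraMap M K u) ≤ (j • A).val P) {T : ℕ}
    (hT0 : 0 < T) (hT : ρ * (n + 2) * (n + 1) * α < T * γ) : ¬ GenS k Λ (n + 1) T := by
  rintro ⟨c, hc⟩
  have : CharZero M := Slope.cz_up k M
  obtain ⟨μ, hμ⟩ := exists_nat_gt (max ((c + 1) * γ / (T * γ - ρ * (n + 2) * (n + 1) * α)) (c + 1))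
  rw [max_lt_iff, div_lt_iff₀ (sub_pos.2 hT)] at hμ
  have h1 : c + 1 ≤ T * μ := (by exact_mod_cast hμ.2.le : c + 1 ≤ μ).trans
    (Nat.le_mul_of_pos_left μ hT0)
  obtain ⟨j, hj⟩ := Nat.exists_eq_add_of_le h1
  obtain ⟨s, h2, h3⟩ := exists_W_of_gen Y _ (hc (j + 1) ((n + 1) * μ) (by nlinarith))
  have h4 := (((dA.nsmul ((n + 1) * μ)).nsmul ((Le (Fin (n + 1)) j).card * ρ)).add
    (dψ.nsmul (Ts.bb (Fin (n + 1)) j))).nonneg hH hd
    (pow_ne_zero ρ ((map_ne_zero (algebraMap M K)).2 h3)) fun P hP => by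
      obtain ⟨g, h5, h6⟩ := hψ P hP
      have h7 := h5.v_W_le (c := (((n + 1) * μ) • A).val P) fun a => hΛ _ _ (h2 a) P hP
      rw [map_pow, val_add, val_nsmul (_ * ρ), val_nsmul _ ψ, pow_mul]
      refine (pow_le_pow_left' h7 ρ).trans ?_
      rw [mul_pow, ← pow_mul g, mul_comm _ ρ, pow_mul g]
      exact mul_le_mul_right (pow_le_pow_left' h6 _) _
  have h5 : ((n + 1 + 1 : ℕ) : ℚ) * Ts.bb (Fin (n + 1)) j = j * (Le (Fin (n + 1)) j).card := by
    have := succ_mul_bb (ι := Fin (n + 1)) j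
    rw [Fintype.card_fin] at this
    exact_mod_cast this
  have h6 : (0 : ℚ) < (Le (Fin (n + 1)) j).card :=
    Nat.cast_pos.2 (Finset.card_pos.2 ⟨0, mem_Le.2 (by simp)⟩)
  have h7 : (T : ℚ) * μ = c + 1 + j := by exact_mod_cast hj
  generalize ((Le (Fin (n + 1)) j).card : ℕ) = N at *
  generalize Ts.bb (Fin (n + 1)) j = B at *
  push_cast at h4 h5
  have h8 : (0 : ℚ) ≤ N * (ρ * (n + 2) * (n + 1) * α * μ - j * γ) := by
    have := mul_nonneg (show (0 : ℚ) ≤ n + 1 + 1 by positivity) h4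
    exact this.trans_eq (by linear_combination (-γ) * h5)
  have h9 := nonneg_of_mul_nonneg_right h8 h6
  have h10 := hμ.1
  nlinarith

/-- the series of the multiples of a class -/
def sr (H : BD k K) (m : ℕ) : Set K := (m • H).Sec

theorem ser_sr (hH : IsMod H) : Ser (sr H) where
  one := by simpa [sr] using one_mem_Sec
  mul a b x hx y hy := by
    have h := mul_mem_Sec hx hy
    rwa [← add_nsmul] at h
  tau := by simpa [sr] using hH.free.exists_ne
  bir := hH.bir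

/-- **the first gap field** -/
theorem In.gap (h : In H r) (hd : 0 < dim k K) {n : ℕ} (hn : dim k K ≤ n) :
    ∃ F : IntermediateField k K, Reg F K ∧ 0 < dim F K ∧
      NoSec F (sr H) (2 ^ n * ((n + 1) * n + 1) * r) := by
  obtain ⟨e, he⟩ := Nat.exists_eq_succ_of_ne_zero hd.ne'
  have he' : dm k K = e + 1 := he
  obtain ⟨X⟩ : Nonempty (Fr k K (Fin (e + 1))) := he' ▸ exists_fr' k K
  obtain ⟨f, h1, h2⟩ := h.can' X.basis
  have h0 : 0 < ((n + 1) * n + 1) * r := mul_pos (Nat.succ_pos _) h.pos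
  obtain h3 | ⟨F, h3, h4, h5⟩ := Gj.gap (E := k) (ser_sr h.mod) h0 h.reg
  · refine absurd (he' ▸ h3) (noGen (M := K) (ρ := r) (ψ := pr k f - H) (γ := 1) h.mod hd X
      (fun P hP => ?_) (by simpa using (deg_pr f).sub deg_self) deg_self one_pos
      (Λ := sr H) (fun j u hu P _ => hu P) h0 ?_)
    · have h4 : R276.FKDefs_779.IsDiv k (e + 1) P.v.valuationSubring := by
        rw [ValuationSubring.valuationSubring_valuation, ← he']
        exact hP.dvs
      obtain ⟨g, hg⟩ := exists_kv X h4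
      refine ⟨g, hg, ?_⟩
      rw [val_sub, val_pr h1, (h2 P hP.dvs g hg).2 hP, mul_div_cancel_right₀ _ (val_ne _ _)]
    · have h4 : (e : ℚ) + 1 ≤ n := by exact_mod_cast he ▸ hn
      have h5 : (0 : ℚ) < r := Nat.cast_pos.2 h.pos
      have h6 : ((e : ℚ) + 2) * (e + 1) ≤ (n + 1) * n :=
        mul_le_mul (by linarith) h4 (by positivity) (by positivity)
      push_cast
      nlinarith
  · refine ⟨F, h3, h4, h5.mono ?_⟩
    rw [mul_assoc]
    exact Nat.mul_le_mul_right _ (Nat.pow_le_pow_right two_pos ((Slope.dm_le k F K).trans hn))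

/-! ### the series on the base -/

variable (M) in
/-- functions on the base which are bounded by `j A` at the primes -/
def lam (H A : BD k K) (j : ℕ) : Submodule k M where
  carrier := {u | ∀ P, Prm H P → P.v (algebraMap M K u) ≤ (j • A).val P}
  add_mem' ha hb P hP := by
    rw [map_add]
    exact (P.v.map_add _ _).trans (max_le (ha P hP) (hb P hP))
  zero_mem' P _ := by simp
  smul_mem' c x hx P hP := by
    rw [Algebra.smul_def, map_mul, ← IsScalarTower.algebraMap_apply, ← Algebra.smul_def]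
    exact (P.v_smul_le c _).trans (hx P hP)

theorem mul_mem_lam {i j : ℕ} {x y : M} (hx : x ∈ lam M H A i) (hy : y ∈ lam M H A j) :
    x * y ∈ lam M H A (i + j) := fun P hP => by
  rw [map_mul, map_mul, add_nsmul, val_add]
  exact mul_le_mul' (hx P hP) (hy P hP)

theorem one_mem_lam : (1 : M) ∈ lam M H A 0 := fun P _ => by simp

theorem ser_lam (h1 : (1 : M) ∈ lam M H A 1) {G : Set M} (hG : IntermediateField.adjoin k G = ⊤)
    (h : ∀ y ∈ G, ∃ w ∈ lam M H A 1, w ≠ 0 ∧ y * w ∈ lam M H A 1) :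
    Ser fun j => (lam M H A j : Set M) where
  one := one_mem_lam
  mul _ _ _ hx _ hy := mul_mem_lam hx hy
  tau := ⟨1, h1, one_ne_zero⟩
  bir f := by
    have hf : f ∈ IntermediateField.adjoin k G := hG ▸ IntermediateField.mem_top
    induction hf using IntermediateField.adjoin_induction with
    | mem x hx => exact ⟨1, h x hx⟩
    | algebraMap c => exact ⟨0, 1, one_mem_lam, one_ne_zero, by
        rw [← Algebra.smul_def]; exact Submodule.smul_mem _ _ one_mem_lam⟩
    | add x y _ _ hx hy =>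
      obtain ⟨i, w, h2, h3, h4⟩ := hx
      obtain ⟨j, z, h5, h6, h7⟩ := hy
      refine ⟨i + j, w * z, mul_mem_lam h2 h5, mul_ne_zero h3 h6, ?_⟩
      rw [show (x + y) * (w * z) = x * w * z + w * (y * z) by ring]
      exact add_mem (mul_mem_lam h4 h5) (mul_mem_lam h2 h7)
    | inv x _ hx =>
      obtain ⟨i, w, h2, h3, h4⟩ := hx
      by_cases h0 : x = 0
      · exact ⟨i, w, h2, h3, by simp [h0]⟩
      · exact ⟨i, x * w, h4, mul_ne_zero h0 h3, by rwa [inv_mul_cancel_left₀ h0]⟩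
    | mul x y _ _ hx hy =>
      obtain ⟨i, w, h2, h3, h4⟩ := hx
      obtain ⟨j, z, h5, h6, h7⟩ := hy
      refine ⟨i + j, w * z, mul_mem_lam h2 h5, mul_ne_zero h3 h6, ?_⟩
      rw [mul_mul_mul_comm]
      exact mul_mem_lam h4 h7

theorem Bas.pl_update {V : Set K} {ρ : ℕ} (b : Bas M V ρ) (i : Fin ρ) (x : K) :
    b.pl (Function.update b.e i x) = b.ε i x := by
  rw [Bas.pl, show (Matrix.of fun l c => b.ε c (Function.update b.e i x l)) =
      (1 : Matrix (Fin ρ) (Fin ρ) M).updateRow i fun c => b.ε c x by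
    ext l c
    rw [Matrix.of_apply, Matrix.updateRow_apply, Function.update_apply]
    split_ifs
    · rfl
    · rw [b.dual, Matrix.one_apply], ← Matrix.cramer_transpose_apply, Matrix.transpose_one,
    Matrix.cramer_one]
  rfl

/-- Plücker coordinates are quotients of Wronskians -/
theorem pl_mem_lam {D : Derivation M K K} (hφ : ∀ P, Prm H P → ∀ f ∈ P.1, P.v (D f) ≤ φ.val P)
    {m ρ : ℕ} (b : Bas M (sr H m) ρ) (hw : wr D b.e ≠ 0) {v : Fin ρ → K} (hv : ∀ l, v l ∈ sr H m) :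
    b.pl v ∈ lam M H (ρ • m • H + ρ.choose 2 • φ - pr k (wr D b.e)) 1 := fun P hP => by
  obtain ⟨t, ht⟩ := P.exists_v (φ.val P)
  have h1 := v_wr_le' (v := P.v) (D := D) (t := t)
    (fun f hf => ht ▸ hφ P hP f (RZ.le_one_iff.1 hf)) (ne_of_val ht) fun l => hv l P
  have h2 : wr D v = algebraMap M K (b.pl v) * wr D b.e := by
    rw [Bas.pl, ← Matrix.det_transpose, ← wr_smul_mat]
    congr 1
    exact funext fun l => b.sum _ (hv l)
  rw [one_nsmul, val_sub, val_pr hw, le_div_iff₀ (RZ.pos hw), ← map_mul, ← h2, val_add,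
    val_nsmul ρ, val_nsmul _ φ, ← ht]
  exact h1

/-- sections which give generators of the base field -/
theorem exists_level (hH : IsMod H) [Algebra.EssFiniteType k M] : ∃ (G : Set M) (m₀ : ℕ),
    IntermediateField.adjoin k G = ⊤ ∧ ∀ m, m₀ ≤ m → ∀ y ∈ G,
      ∃ w ∈ sr H m, w ≠ 0 ∧ y • w ∈ sr H m := by
  obtain ⟨G, hG⟩ := (IntermediateField.fg_top_iff (F := k) (E := M)).2 inferInstance
  choose m w h1 h2 h3 using fun y : M => hH.bir (algebraMap M K y)
  refine ⟨G, G.sup m, hG, fun l hl y hy => ?_⟩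
  obtain ⟨e, rfl⟩ := Nat.exists_eq_add_of_le ((Finset.le_sup (f := m) hy).trans hl)
  obtain ⟨τ, h4, h5⟩ := (ser_sr hH).exists_ne e
  refine ⟨w y * τ, (ser_sr hH).mul _ _ _ (h1 y) _ h4, mul_ne_zero (h2 y) h5, ?_⟩
  rw [Algebra.smul_def, ← mul_assoc]
  exact (ser_sr hH).mul _ _ _ (h3 y) _ h4

/-- **the second gap field** -/
theorem second (hB : BetaStmt) (h : In H r) (hM : Reg M K) [Algebra.EssFiniteType k M]
    (h1 : dim M K = 1) (h2 : 2 ≤ dim k K) {n : ℕ} (hn : dim k K ≤ n) :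
    ∃ m₀ : ℕ, ∀ m, m₀ ≤ m → ∀ {ρ : ℕ} (b : Bas M (sr H m) ρ), ∃ (Λ : Set M)
      (E : IntermediateField k M), Reg E M ∧ 0 < dim E M ∧
      (∀ v, (∀ l, v l ∈ sr H m) → b.pl v ∈ Λ) ∧
      ∀ w ∈ S E M Λ, w ∈ I E M ^ (2 ^ n * (n * n * (ρ * (2 * m * r + ρ)) + 1)) → w = 0 := by
  have : CharZero M := Slope.cz_up k M
  have : Algebra.EssFiniteType M K := Slope.eft_up k M K
  have h3 := Loc.dim_tower k M K
  obtain ⟨e, he⟩ : ∃ e, dm k M = e + 1 := ⟨dim k M - 1, show dim k M = _ by omega⟩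
  have he' : dim k M = e + 1 := he
  obtain ⟨Y⟩ : Nonempty (Fr k M (Fin (e + 1))) := he ▸ exists_fr' k M
  obtain ⟨Z⟩ : Nonempty (Fr M K (Fin 1)) := (show dm M K = 1 from h1) ▸ exists_fr' M K
  obtain ⟨ψ, φ, γ, b1, b2, b3, b4, b5⟩ := hB h hM Z Y
  obtain ⟨G, m₀, g1, g2⟩ := exists_level (M := M) h.mod
  refine ⟨m₀, fun m hm ρ b => ?_⟩
  have hw : wr (Z.D 0) b.e ≠ 0 := (wr_fr_ne_iff hM Z).2 b.li
  have hp := fun v => pl_mem_lam b2 b hw (v := v)
  have hS := ser_lam (b.pl_e ▸ hp b.e b.mem) g1 fun y hy => by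
    obtain ⟨w, w1, w2, w3⟩ := g2 m hm y hy
    obtain ⟨i, hi⟩ : ∃ i, b.ε i w ≠ 0 := by
      by_contra hc
      push Not at hc
      exact w2 (by rw [b.sum w w1]; simp [hc])
    have h4 : ∀ x ∈ sr H m, ∀ l, Function.update b.e i x l ∈ sr H m := fun x hx l => by
      rw [Function.update_apply]
      split_ifs
      exacts [hx, b.mem l]
    refine ⟨b.ε i w, b.pl_update i w ▸ hp _ (h4 w w1), hi, ?_⟩
    rw [← smul_eq_mul, ← map_smul, ← b.pl_update]
    exact hp _ (h4 _ w3)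
  have hk : Reg k M := Slope.reg_of_ac fun g hg => by
    obtain ⟨c, hc⟩ := Slope.ac_of_reg h.reg _ (hg.algebraMap (A := K))
    exact ⟨c, (algebraMap M K).injective (by rw [← IsScalarTower.algebraMap_apply, hc])⟩
  have hr : (0 : ℚ) < r := Nat.cast_pos.2 h.pos
  have hγ : 0 < γ := by
    by_contra hc
    nlinarith
  obtain h4 | ⟨E, h4, h5, h6⟩ := Gj.gap (E := k) hS
    (Nat.succ_pos (n * n * (ρ * (2 * m * r + ρ)))) hk
  · refine absurd (he ▸ h4) (noGen (ρ := 1) h.mod (by omega) Y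
      (fun P hP => ⟨_, b1 P hP, (pow_one _).le⟩) b3
      ((((deg_self.nsmul m).nsmul ρ).add (b4.nsmul _)).sub (deg_pr _)) hγ
      (fun j u hu => hu) (Nat.succ_pos _) ?_)
    have h5 : (e : ℚ) + 2 ≤ n := by exact_mod_cast (by omega : e + 2 ≤ n)
    have h6 : ((e : ℚ) + 2) * (e + 1) ≤ n * n :=
      mul_le_mul h5 (by linarith) (by positivity) (by positivity)
    have h7 : (ρ.choose 2 : ℚ) ≤ ρ * ρ := by
      exact_mod_cast (Nat.choose_le_pow ρ 2).trans_eq (sq ρ)
    have h8 : (ρ : ℚ) * (m * 1) + ρ.choose 2 * (γ - 1 / r) - 0 ≤ ρ * (2 * m * r + ρ) * γ := by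
      have h9 : (ρ : ℚ) * m * 1 ≤ ρ * m * (2 * r * γ) := mul_le_mul_of_nonneg_left b5 (by positivity)
      have h10 : (ρ.choose 2 : ℚ) * γ ≤ ρ * ρ * γ := mul_le_mul_of_nonneg_right h7 hγ.le
      have h11 : (0 : ℚ) ≤ ρ.choose 2 * (1 / r) := by positivity
      nlinarith
    have h9 := mul_le_mul_of_nonneg_left h8 (show (0 : ℚ) ≤ (e + 2) * (e + 1) by positivity)
    have h10 := mul_le_mul_of_nonneg_right h6
      (show (0 : ℚ) ≤ ρ * (2 * m * r + ρ) * γ by positivity)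
    push_cast
    nlinarith
  · refine ⟨_, E, h4, h5, hp, fun w hw hw' => h6 1 one_pos w hw (Ideal.pow_le_pow_right ?_ hw')⟩
    rw [mul_one]
    exact Nat.mul_le_mul_right _ (Nat.pow_le_pow_right two_pos
      ((Slope.dm_le k E M).trans (by omega)))

end Crest.Agent.X262.Vol77
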